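import Vale.Agent.P144D.I.N4.A
import Vale.Agent.P144D.B.Bd

/-!
The sizes of a marked half-edge.
-/

namespace Vale.Agent.P144Z

open Finset Matrix

namespace IN4

/-- The induction over the scales. -/
theorem chain {a b c₀ : ℝ} (ha : 1 ≤ a) (hb : 1 ≤ b) (hc₀ : 1 ≤ c₀) : ∃ c : ℝ, 1 ≤ c ∧
    ∀ η > (0 : ℝ), ∃ ε > (0 : ℝ), ∀ (M : ℕ) [NeZero M] (A : Gauge M) (s : Tor M × Fin 4)
    (ℓ : ℕ → ℕ) (J : ℕ) (U : ℕ → Tor M × Fin 4 → ℝ), (∀ j, 1 ≤ ℓ j) →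
    hsq A (ℓ 0) (ball s.1 (3 * ℓ 0)) (Pi.single s 1) ≤ c₀ ^ 2 → Sz A (ℓ 0) (ℓ 1) s.1 a →
    (∀ j, 1 ≤ j → j < J → RkA A (ℓ j) (ℓ (j + 1)) (3 * ℓ j) a ε s.1 ∧
      0 < hsq A (ℓ j) (ball s.1 (3 * ℓ j)) (U j) ∧
      hsq A (ℓ (j + 1)) (ball s.1 (ℓ (j + 1))) (U j) * (ℓ j : ℝ) ^ 2 ≤
        b * (ℓ (j + 1) : ℝ) ^ 2 * hsq A (ℓ j) (ball s.1 (3 * ℓ j)) (U j)) →
    (1 < J → hsq A (ℓ 1) (ball s.1 (3 * ℓ 1)) (U 1) * (ℓ 0 : ℝ) ^ 2 ≤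
      b * (ℓ 1 : ℝ) ^ 2 * U 1 s ^ 2) →
    (∀ j, 1 ≤ j → j + 1 < J → hsq A (ℓ (j + 1)) (ball s.1 (3 * ℓ (j + 1))) (U (j + 1)) *
      (ℓ j : ℝ) ^ 2 ≤ b * (ℓ (j + 1) : ℝ) ^ 2 * hsq A (ℓ j) (ball s.1 (3 * ℓ j)) (U (j + 1))) →
    ∃ (u : ℕ → Tor M × Fin 4 → ℝ) (ν : ℕ → ℝ), MkAt A (ℓ 0) (ℓ 1) s (u 0) (ν 0) (ν 1) c c ∧
      ν 0 = √(ℓ 0) ∧ ∀ j, 1 ≤ j → j < J →
        MkAt A (ℓ j) (ℓ (j + 1)) s (u j) (ν j) (ν (j + 1)) c η ∧ ∃ t : ℝ, u j = t • U j := by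
  obtain ⟨η₀, h₀⟩ : ∃ η₀ : ℝ, η₀ ^ 2 = (2 + 2 * c₀ ^ 2) * a ^ 2 :=
    ⟨_, Real.sq_sqrt (by positivity)⟩
  obtain ⟨C, hC⟩ : ∃ C, C = 2 * a ^ 2 + 2 * η₀ ^ 2 := ⟨_, rfl⟩
  have a2 : 1 ≤ a ^ 2 := one_le_pow₀ ha
  have c2 : c₀ ≤ c₀ ^ 2 := by nlinarith
  have e1 : c₀ ≤ η₀ ^ 2 := by nlinarith
  have e2 : 1 ≤ C := by linarith
  obtain ⟨c, hc⟩ : ∃ c, c = 4 * b * C := ⟨_, rfl⟩
  have e3 : C ≤ c := by nlinarith
  have e4 : c ≤ c ^ 2 := by nlinarith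
  refine ⟨c, by linarith, fun η hη => ?_⟩
  obtain ⟨η₁, k0, k1, k2⟩ : ∃ η₁ > (0 : ℝ), η₁ ^ 2 ≤ η ^ 2 ∧ 4 * b * η₁ ^ 2 ≤ 1 := by
    refine ⟨min η (1 / (2 * b)), by positivity, pow_le_pow_left₀ (by positivity)
      (min_le_left _ _) 2, ?_⟩
    have := pow_le_pow_left₀ (by positivity) (min_le_right η (1 / (2 * b))) 2
    rw [div_pow, le_div_iff₀ (by positivity)] at this
    nlinarith [mul_nonneg (sq_nonneg (min η (1 / (2 * b)))) (by nlinarith : 0 ≤ b ^ 2 - b)]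
  obtain ⟨Q, hQ⟩ : ∃ Q, Q = (2 + 2 * c ^ 2) * (2 + 16 * b * (a ^ 2 + 1)) := ⟨_, rfl⟩
  have q1 : 1 ≤ Q := hQ ▸ one_le_mul_of_one_le_of_one_le (by linarith) (by nlinarith)
  have q2 : (η₁ / Q) ^ 2 * Q ≤ η₁ ^ 2 := by
    rw [div_pow, div_mul_eq_mul_div, div_le_iff₀ (by positivity)]
    gcongr
    nlinarith
  have q3 : (η₁ / Q) ^ 2 ≤ η₁ ^ 2 := (le_mul_of_one_le_right (sq_nonneg _) q1).trans q2
  have q4 : η₁ ^ 2 ≤ 1 := by nlinarith [sq_nonneg η₁]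
  refine ⟨η₁ / Q, by positivity, fun M _ A s ℓ J U hℓ h1 h2 h3 h4 h5 => ?_⟩
  generalize η₁ / Q = ε at q2 q3 h3
  obtain ⟨u, u0, u1⟩ : ∃ u : ℕ → Tor M × Fin 4 → ℝ, u 0 = Pi.single s 1 ∧
      ∀ j, u (j + 1) = (U (j + 1) s)⁻¹ • U (j + 1) :=
    ⟨fun j => Nat.casesOn j (Pi.single s 1) fun j => (U (j + 1) s)⁻¹ • U (j + 1), rfl,
      fun _ => rfl⟩
  obtain ⟨ν, v0, v1⟩ : ∃ ν : ℕ → ℝ, ν 0 = √(ℓ 0) ∧
      ∀ j, ν (j + 1) = nx A (ℓ j) (ℓ (j + 1)) s (u j) C :=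
    ⟨fun j => Nat.casesOn j √(ℓ 0) fun j => nx A (ℓ j) (ℓ (j + 1)) s (u j) C, rfl, fun _ => rfl⟩
  have s0 : ∀ c', c₀ ≤ c' → St A (ℓ 0) s (u 0) (ν 0) c' := fun c' h => by
    rw [u0, v0]
    refine ⟨Pi.single_eq_same _ _, Real.sqrt_pos.2 (Nat.cast_pos.2 (hℓ 0)), RN.dom_single A _ s, ?_⟩
    rw [Real.sq_sqrt (Nat.cast_nonneg _)]
    exact mul_le_mul_of_nonneg_right (h1.trans (pow_le_pow_left₀ (by linarith) h 2))
      (Nat.cast_nonneg _)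
  have s1 := s0 c (by linarith)
  have m0 : MkAt A (ℓ 0) (ℓ 1) s (u 0) (ν 0) (nx A (ℓ 0) (ℓ 1) s (u 0) C) c c :=
    s1.mkAt (η₀ := η₀) (hℓ 0) (hℓ 1) h2 (fun w => by
      have k3 := mul_le_mul_of_nonneg_right ((s0 c₀ le_rfl).center (hℓ 0) w) (sq_nonneg (ℓ 1 : ℝ))
      have k4 := mul_le_mul_of_nonneg_left (h2 w) (by positivity : 0 ≤ 2 + 2 * c₀ ^ 2)
      rw [h₀]
      linarith) (by linarith) hC.ge e2 (by linarith) (by linarith)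
  have rk : ∀ j, j + 1 < J → St A (ℓ (j + 1)) s (u (j + 1)) (ν (j + 1)) c →
      Rk A (ℓ (j + 1)) (ℓ (j + 2)) s (u (j + 1)) η₁ := fun j hj h => by
    obtain ⟨r1, r2, r3⟩ := h3 (j + 1) (by omega) hj
    rw [u1] at h ⊢
    refine h.rk (hℓ _) (hℓ _) r1 r2 r3 (by linarith) (by nlinarith) (le_trans ?_ q2)
    have : ε ^ 2 * b * (a ^ 2 + ε ^ 2) ≤ ε ^ 2 * b * (a ^ 2 + 1) := by gcongr; linarith
    rw [hQ, mul_left_comm (ε ^ 2)]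
    exact mul_le_mul_of_nonneg_left (by linarith) (by positivity)
  have mk : ∀ j, j + 1 < J → St A (ℓ (j + 1)) s (u (j + 1)) (ν (j + 1)) c →
      MkAt A (ℓ (j + 1)) (ℓ (j + 2)) s (u (j + 1)) (ν (j + 1))
        (nx A (ℓ (j + 1)) (ℓ (j + 2)) s (u (j + 1)) C) c η := fun j hj h =>
    h.mkAt (hℓ _) (hℓ _) (fun w => ((h3 (j + 1) (by omega) hj).1.choose_spec w).1) (rk j hj h) k1
      (by linarith) e2 (by linarith) (by linarith)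
  have st : ∀ j, j + 1 < J → St A (ℓ (j + 1)) s (u (j + 1)) (ν (j + 1)) c := fun j => by
    induction j with
    | zero =>
      intro hj
      rw [u1, v1]
      refine s1.next (b := 4 * b) (hℓ _) (hℓ _) m0 (h3 1 le_rfl hj).2.1 ((h4 hj).trans ?_)
        (by linarith) (by linarith)
      have k3 := s1.low
      rw [v0, Real.sq_sqrt (Nat.cast_nonneg _), le_mul_iff_one_le_right
        (Nat.cast_pos.2 (hℓ 0))] at k3
      exact mul_le_mul (by gcongr; linarith) (le_mul_of_one_le_right (sq_nonneg _) k3)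
        (sq_nonneg _) (by positivity)
    | succ j ih =>
      intro hj
      have k3 := ih (by omega)
      rw [u1 (j + 1), v1 (j + 1)]
      exact k3.next (hℓ _) (hℓ _) (mk j (by omega) k3) (h3 (j + 2) (by omega) hj).2.1
        ((rk j (by omega) k3).val hb k2 (h5 (j + 1) (by omega) hj)) (by linarith) (by linarith)
  refine ⟨u, ν, v1 0 ▸ m0, v0, fun j hj hJ => ?_⟩
  obtain ⟨j, rfl⟩ := Nat.exists_eq_add_of_le' hj
  exact ⟨v1 (j + 1) ▸ mk j hJ (st j hJ), _, u1 j⟩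

section geo

variable {M : ℕ} {I : Finset (Tor M)} {κ : ℝ} {r : ℕ} {z : Tor M} {e : Fin 4}

theorem mono {r' : ℕ} (h : MkT I κ r z e) (hr : r' ≤ r) : MkT I κ r' z e := by
  obtain ⟨S, ν, h1, h2, h3, h4⟩ := h.cone
  exact ⟨⟨S, ν, h1, h2, h3, fun v hv => h4 v (hv.trans hr)⟩, h.rem, h.touch⟩

theorem shapeAt {κ' : ℝ} (h : MkT I κ r z e) (hκ : κ ≤ κ') : ShapeAt I 1 κ' r z := by
  obtain ⟨S, ν, h1, h2, -, h4⟩ := h.cone
  refine ⟨S, S, ν, ν, h1, h1, ?_, GeoA.epi_mono h2 hκ, GeoA.epi_mono h2 hκ,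
    fun v hv => by rw [h4 v hv, and_self]⟩
  rw [← two_smul ℝ ν, norm_smul, h1]
  norm_num

theorem bx_cn (k : Fin 4) : B5b.Bx 1 (-cn k) := by fin_cases k <;> simp [B5b.Bx, cn]

theorem mem_cn (k : Fin 4) : z + prj M (-cn k) = z - prj M (cn k) := by
  simp [prj, sub_eq_add_neg]

theorem flatH (h : MkT I κ r z e) (hκ : 0 ≤ κ) {ρ : ℕ} (h1 : 1 ≤ r) (h2 : ρ ≤ r) :
    ∃ ν : ℂ, ‖ν‖ = 1 ∧ OutH I z ν ρ (κ * (2 * (ρ + 1)) + 2) ∧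
      InH I z ν ρ (κ * (2 * (ρ + 1)) + 2) := by
  obtain ⟨S, ν, k1, k2, -, k4⟩ := h.cone
  have k5 : ∀ k, z - prj M (cn k) ∈ I ↔ -cn k ∈ S := fun k => by
    rw [← mem_cn, k4 _ ((B5b.bx_iff.2 (bx_cn k)).trans h1)]
  have k6 := fun k => abs_le.1 ((bx_cn k).ht_le k1.le)
  refine ⟨ν, k1, fun v hv h3 h4 => h.rem.1 ((k5 _).2 (B5b.epi_of k2 hκ
    ((k4 v (hv.trans h2)).1 h4) ((bx_cn _).sub (B5b.bx_iff.1 hv)) ?_)), fun v hv h3 => ?_⟩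
  · rw [B5b.ht_sub]
    push_cast at k6 ⊢
    linarith [(k6 (e + 1)).1]
  · obtain ⟨k, hk⟩ := h.touch
    refine (k4 v (hv.trans h2)).2 (B5b.epi_of k2 hκ ((k5 k).1 hk)
      ((B5b.bx_iff.1 hv).sub (bx_cn k)) ?_)
    rw [B5b.ht_sub]
    push_cast at k6 ⊢
    linarith [(k6 k).2]

variable [NeZero M]

theorem near (h : MkT I κ r z e) : ∃ f, f ∉ I ∧ tdist f z ≤ 1 :=
  ⟨_, h.rem.1, by
    rw [← mem_cn]
    have := B5b.bx_iff.2 (bx_cn (e + 1))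
    simp only [zd, Prod.fst_zero, Prod.snd_zero, sub_zero] at this
    exact (G.tdist_add_prj_le _ _).trans this⟩

theorem hsq_single {A : Gauge M} (hA : IsW A) (B : Finset (Tor M)) (s : Tor M × Fin 4) :
    hsq A (8 : ℕ) B (Pi.single s 1) ≤ (2 * 1024 ^ 2) ^ 2 := by
  have h1 : ∀ k, l2sq B ((Dm A ^ k) *ᵥ Pi.single s 1) ≤ 16 ^ k := fun k => by
    refine (E4.l2sq_mono (subset_univ B) _).trans ?_
    rw [E4.l2sq_univ]
    induction k with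
    | zero => rw [pow_zero, one_mulVec]; simp
    | succ k ih =>
      rw [pow_succ', ← mulVec_mulVec]
      exact ((W.isD_Dm hA).le _).trans (by rw [pow_succ']; gcongr)
  refine (sum_le_sum fun k _ => mul_le_mul_of_nonneg_left (h1 k) (by positivity)).trans ?_
  norm_num [sum_range_succ]

theorem rk3 {A : Gauge M} {ℓ ℓ' : ℕ} {a ε : ℝ} (h : RkA A ℓ ℓ' (11 * ℓ) a ε z) :
    RkA A ℓ ℓ' (3 * ℓ) a ε z := by
  have k := fun w => mul_le_mul_of_nonneg_right (E4.hsq_mono A (Nat.cast_nonneg ℓ) le_rfl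
    (E3.ball_mono z (by omega : 3 * ℓ ≤ 11 * ℓ)) w) (sq_nonneg (ℓ' : ℝ))
  obtain ⟨u, hu⟩ := h
  exact ⟨u, fun w => ⟨(k w).trans (hu w).1, (hu w).2.imp fun _ ht => (k _).trans ht⟩⟩

variable {A : Gauge M} {ℓ₀ ℓ ℓ' : ℕ} {U : Tor M × Fin 4 → ℝ} {b c d : ℝ}

theorem nd1 (hc : 0 < c) (hb : 1 ≤ b * c) (h0 : 1 ≤ ℓ) (h1 : ℓ + 1 ≤ ℓ') (h2 : Hom A z (3 * ℓ') U)
    (h3 : l2sq (ball z (3 * ℓ')) U ≤ (3 * ℓ' : ℕ))
    (h4 : c * (3 * ℓ : ℕ) ^ 2 ≤ (3 * ℓ' : ℕ) * l2sq (ball z (3 * ℓ)) U) :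
    0 < hsq A ℓ (ball z (3 * ℓ)) U ∧ hsq A ℓ' (ball z ℓ') U * (ℓ : ℝ) ^ 2 ≤
      b * (ℓ' : ℝ) ^ 2 * hsq A ℓ (ball z (3 * ℓ)) U := by
  rw [E4.hsq_of_D A _ fun s hs => h2 s (by omega), E4.hsq_of_D A _ fun s hs => h2 s (by omega)]
  have l0 : (0 : ℝ) < ℓ := Nat.cast_pos.2 h0
  have k1 := (E4.l2sq_mono (E3.ball_mono z (by omega : ℓ' ≤ 3 * ℓ')) U).trans h3
  push_cast at k1 h4
  have k0 : 0 < l2sq (ball z (3 * ℓ)) U :=
    pos_of_mul_pos_right (lt_of_lt_of_le (by positivity) h4) (by positivity)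
  refine ⟨k0, le_of_mul_le_mul_right ?_ hc⟩
  have k2 := mul_le_mul_of_nonneg_right k1 (by positivity : 0 ≤ c * (ℓ : ℝ) ^ 2)
  have k3 := mul_le_mul_of_nonneg_right h4 (Nat.cast_nonneg (α := ℝ) ℓ')
  have k4 := mul_le_mul_of_nonneg_right hb
    (by positivity : 0 ≤ (ℓ' : ℝ) ^ 2 * l2sq (ball z (3 * ℓ)) U)
  linarith

theorem nd2 (h1 : ℓ + 1 ≤ ℓ') (h2 : Hom A z (3 * ℓ') U)
    (h3 : l2sq (ball z (3 * ℓ')) U ≤ (3 * ℓ' : ℕ)) (h4 : HomDec A z (3 * ℓ) (3 * ℓ') d)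
    (hc : 0 < c) {t X : ℝ} (ht : 0 ≤ t) (hX : 0 ≤ X) (h5 : c * t ≤ 192 * ℓ' * X)
    (hb : 576 * d ^ 2 ≤ b * c) : hsq A ℓ (ball z (3 * ℓ)) U * t ≤ b * (ℓ : ℝ) ^ 2 * X := by
  rw [E4.hsq_of_D A _ fun s hs => h2 s (by omega)]
  have l1 : (0 : ℝ) < ℓ' := Nat.cast_pos.2 (by omega)
  have k1 := (h4 _ _ le_rfl (by omega) le_rfl U h2).trans
    (mul_le_mul_of_nonneg_left h3 (by positivity))
  push_cast at k1
  have k2 : l2sq (ball z (3 * ℓ)) U * ℓ' ≤ 3 * d ^ 2 * ℓ ^ 2 :=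
    le_of_mul_le_mul_right (by linarith) l1
  refine le_of_mul_le_mul_right ?_ (mul_pos hc l1)
  have k3 := mul_le_mul_of_nonneg_right k2 (mul_nonneg hc.le ht)
  have k4 := mul_le_mul_of_nonneg_left h5 (by positivity : 0 ≤ 3 * d ^ 2 * (ℓ : ℝ) ^ 2)
  have k5 := mul_le_mul_of_nonneg_right hb (by positivity : 0 ≤ (ℓ : ℝ) ^ 2 * X * ℓ')
  linarith

end geo

end IN4

open IN4 in
theorem mkStmt_of (h : RefStmt) : MkStmt := by
  obtain ⟨cr, hcr, Cr, href⟩ := h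
  obtain ⟨d, hd, hdec⟩ := dec_solv 1 one_pos
  obtain ⟨a, ha, hrk⟩ := rk_of d hd
  obtain ⟨L₁, h₁⟩ := hrk d (by linarith) 12
  obtain ⟨b, hb, b1⟩ : ∃ b : ℝ, 1 ≤ b ∧ 576 * d ^ 2 ≤ b * cr :=
    ⟨576 * d ^ 2 / cr + 1, le_add_of_nonneg_left (by positivity), by
      rw [add_mul, div_mul_cancel₀ _ hcr.ne']
      linarith⟩
  have b2 : 1 ≤ b * cr := le_trans (by nlinarith) b1
  obtain ⟨c, hc, hch⟩ := chain (c₀ := 2 * 1024 ^ 2) ha hb (by norm_num)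
  refine ⟨c, hc, 24, fun η hη => ?_⟩
  obtain ⟨ε, hε, hch⟩ := hch η hη
  have hε' : 0 < ε / a := by positivity
  obtain ⟨K, K', hR⟩ := B5d.rank hom_rank conn_of_shape one_pos hε'
  obtain ⟨L₂, h₂⟩ := hrk _ hε' K'
  refine ⟨L₁ + L₂ + K + K' + Cr + 12, fun L hL => ?_⟩
  obtain ⟨κ₀, hκ₀, hdec⟩ := hdec L
  obtain ⟨κ, hκ, k0, k1⟩ : ∃ κ > 0, κ ≤ κ₀ ∧ κ * (100 * (L : ℝ) ^ 3) ≤ 1 := by
    have : (0 : ℝ) < L := Nat.cast_pos.2 (by omega)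
    refine ⟨min κ₀ (1 / (100 * (L : ℝ) ^ 3)), by positivity, min_le_left _ _, ?_⟩
    rw [← le_div_iff₀ (by positivity)]
    exact min_le_right _ _
  refine ⟨κ, hκ, fun M _ I r J z e hI hM hJ hr => ?_⟩
  have L1 : (1 : ℝ) ≤ L := Nat.one_le_cast.2 (by omega)
  have k2 : κ * (100 * (L : ℝ) ^ 2) ≤ 1 := le_trans (by gcongr; omega) k1
  have k3 : 100 * κ ≤ 1 := by nlinarith [mul_le_mul_of_nonneg_left (one_le_pow₀ L1 (n := 2)) hκ.le]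
  have s1 : ∀ j, sc L (j + 1) = L * sc L j := fun j => by unfold sc; ring
  have s2 : ∀ j, 8 ≤ sc L j := fun j => Nat.le_mul_of_pos_right 8 (pow_pos (by omega) j)
  have s3 : ∀ j ≤ J, 24 * sc L j ≤ r := fun j hj => le_trans (Nat.mul_le_mul_left 24
    (Nat.mul_le_mul_left 8 (Nat.pow_le_pow_right (by omega) hj))) hr
  have s4 : ∀ j, 1 ≤ j → 8 * L ≤ sc L j := fun j hj =>
    Nat.mul_le_mul_left 8 (Nat.le_self_pow (by omega) L)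
  have s5 : ∀ {N}, N ≤ L → ∀ j, N * sc L j ≤ sc L (j + 1) := fun h j =>
    s1 j ▸ Nat.mul_le_mul_right _ h
  have sg : IsSign (1 : Gauge M) := fun _ => Or.inl rfl
  have fl : ∀ ρ, Flat (1 : Gauge M) z ρ := fun _ _ _ => by simp [flux]
  have dec := fun s ρ h1 h2 h3 => hdec M ⟨I, false⟩ 1 r z sg (shapeAt hI k0) hM (near hI) s ρ h1 h2
    h3 (fl _)
  simp only [mul_one] at dec
  have dec1 := fun j (hj : j < J) => dec (11 * sc L j) (sc L (j + 1)) (by have := s2 j; omega)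
    (s1 j ▸ Nat.mul_le_mul_left _ (by omega))
    (by have := s3 (j + 1) hj; have := s2 (j + 1); omega)
  have dec2 := fun j (hj : j < J) => (dec (3 * sc L j) (3 * sc L (j + 1)) (by have := s2 j; omega)
    (by rw [s1, mul_left_comm]) (by have := s3 (j + 1) hj; have := s2 (j + 1); omega)).1
  choose! U u1 u2 u3 u4 using fun j (hj : j < J) => href M I κ (3 * sc L (j + 1)) z e hκ k3
    (mono hI (by have := s3 (j + 1) hj; omega)) (by have := s3 (j + 1) hj; omega)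
    (by have := s4 (j + 1) (by omega); omega)
  have low : ∀ i j, 1 ≤ i → i ≤ j → j < J → sc L (j + 1) ≤ L ^ 2 * sc L i →
      cr * (3 * sc L i : ℕ) ^ 2 ≤ (3 * sc L (j + 1) : ℕ) * l2sq (ball z (3 * sc L i)) (U j) :=
    fun i j h1 h2 h3 h4 => u3 j h3 _ (by
      have e1 : (sc L (j + 1) : ℝ) ≤ L ^ 2 * sc L i := by exact_mod_cast h4
      have e2 : (8 * L : ℝ) ≤ sc L i := by exact_mod_cast s4 i h1
      have e3 : (Cr : ℝ) ≤ L := by exact_mod_cast (by omega : Cr ≤ L)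
      have e4 : (Cr : ℝ) * (κ * (3 * sc L (j + 1)) + 1) ≤ L * (κ * (3 * (L ^ 2 * sc L i)) + 1) := by
        gcongr
      have e5 := mul_le_mul_of_nonneg_right k1 (Nat.cast_nonneg (α := ℝ) (sc L i))
      push_cast
      linarith) (Nat.mul_le_mul_left 3 (Nat.mul_le_mul_left 8
        (Nat.pow_le_pow_right (by omega) (by omega))))
  have lt : ∀ j, sc L j + 1 ≤ sc L (j + 1) := fun j => by
    have := s5 (N := 2) (by omega) j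
    have := s2 j
    omega
  have g1 : ∀ j, 1 ≤ j → j < J → RkA (pwI I) (sc L j) (sc L (j + 1)) (3 * sc L j) a ε z := by
    intro j h1 h2
    have e1 := s3 (j + 1) h2
    have e2 := s5 (N := K) (by omega) j
    have e3 := s5 (N := K') (by omega) j
    have e4 := s2 j
    have e5 := s2 (j + 1)
    obtain ⟨μ, n1, n2, n3⟩ := flatH hI hκ.le (ρ := K * sc L j) (by omega) (by omega)
    obtain ⟨ρ, r1, r2, r3⟩ := hR M ⟨I, false⟩ 1 κ r (sc L j) z μ _ sg (shapeAt hI le_rfl)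
      (by linarith) hM (by omega) (by omega) (fl _) n1 (by positivity) (by
        have f1 : (8 * L : ℝ) ≤ sc L j := by exact_mod_cast s4 j h1
        have f2 : (K : ℝ) ≤ L := by exact_mod_cast (by omega : K ≤ L)
        have f3 : (K : ℝ) * (κ * (2 * (K * sc L j + 1)) + 2 + 1) ≤
            L * (κ * (2 * (L * sc L j + L * sc L j)) + 2 + 1) := by
          gcongr
          nlinarith
        have f4 := mul_le_mul_of_nonneg_right k2 (Nat.cast_nonneg (α := ℝ) (sc L j))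
        push_cast
        linarith) n2 n3
    rw [mul_one] at r3
    have := h₂ M _ z (sc L j) ρ _ (by omega) r1 r2 (s5 (by omega) j) (dec1 j h2).1 (dec1 j h2).2 r3
    rw [mul_div_cancel₀ _ (by positivity)] at this
    exact rk3 this
  obtain ⟨u, ν, m0, m1, m2⟩ := hch M (pwI I) (z, e + 2) (sc L) J U (fun j => by have := s2 j; omega)
    (by simpa [sc] using hsq_single (B5c.isW ⟨I, false⟩ sg) (ball z 24) (z, e + 2))
    (fun w => ((rk3 (h₁ M _ z (sc L 0) (12 * sc L 0) _ (by have := s2 0; omega)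
      (by have := s2 0; omega) le_rfl (s5 (by omega) 0) (dec1 0 hJ).1 (dec1 0 hJ).2
      ⟨0, fun _ _ => by simp, fun φ hφ => ⟨0, by
        rw [zero_smul, sub_zero]
        exact (dec1 0 hJ).1 _ _ le_rfl (by omega) (s5 (by omega) 0) φ hφ⟩⟩)).choose_spec w).1)
    (fun j h1 h2 => ⟨g1 j h1 h2, nd1 hcr b2 (by have := s2 j; omega) (lt j) (u1 j h2) (u2 j h2)
      (low j j h1 le_rfl h2 (s1 j ▸ Nat.mul_le_mul_right _ (Nat.le_self_pow two_ne_zero L)))⟩)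
    (fun h => nd2 (lt 1) (u1 1 h) (u2 1 h) (dec2 1 h) hcr (sq_nonneg _) (sq_nonneg _) (by
      have := u4 1 h (by
        simp only [sc]
        push_cast
        linarith [mul_nonneg hκ.le (sq_nonneg (L : ℝ))])
      simp only [sc] at this ⊢
      push_cast at this ⊢
      linarith) b1)
    fun j h1 h2 => nd2 (lt _) (u1 _ h2) (u2 _ h2) (dec2 _ h2) hcr (sq_nonneg _)
      (E4.hsq_nonneg _ _ _) (by
        have e1 := (low j (j + 1) h1 (by omega) h2 (by rw [s1, s1, ← mul_assoc, sq])).trans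
          (mul_le_mul_of_nonneg_left (E4.l2sq_le_hsq (pwI I) (sc L j) _ _) (Nat.cast_nonneg _))
        have e2 := mul_nonneg (Nat.cast_nonneg (α := ℝ) (sc L (j + 1 + 1)))
          (E4.hsq_nonneg (pwI I) (ρ := sc L j) (ball z (3 * sc L j)) (U (j + 1)))
        have e3 := mul_nonneg hcr.le (sq_nonneg (sc L j : ℝ))
        push_cast at e1
        linarith) b1
  refine ⟨u, ν, m0, by simpa [sc] using m1, fun j h1 h2 => (m2 j h1 h2).1, fun j h1 h2 t ht => ?_⟩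
  obtain ⟨τ, e⟩ := (m2 j h1 h2).2
  rw [e, mulVec_smul, Pi.smul_apply, u1 j h2 t ht, smul_zero]

end Vale.Agent.P144Z
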