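import Vale.Agent.P144D.I.DefsN

/-!
The sizes of a marked half-edge: the abstract induction over the scales.
-/

namespace Vale.Agent.P144Z.IN4

open Finset Matrix

variable {M : ℕ} [NeZero M] {A : Gauge M} {s : Tor M × Fin 4} {ℓ₀ ℓ ℓ' : ℕ}
  {u U : Tor M × Fin 4 → ℝ} {ν a b c C η ε : ℝ}

theorem hsq_smul (A : Gauge M) (ρ : ℝ) (B : Finset (Tor M)) (t : ℝ) (g : Tor M × Fin 4 → ℝ) :
    hsq A ρ B (t • g) = t ^ 2 * hsq A ρ B g := by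
  unfold hsq
  rw [mul_sum]
  exact sum_congr rfl fun k _ => by rw [mulVec_smul, E4.l2sq_smul]; ring

/-- Change of the field of reference. -/
theorem swap {ρ : ℝ} {B : Finset (Tor M)} {v w : Tor M × Fin 4 → ℝ} {t t' X ε' : ℝ}
    (hw : hsq A ρ B w ≤ a * X) (h1 : hsq A ρ B (w - t • v) ≤ ε * X)
    (h2 : hsq A ρ B (U - t' • v) ≤ ε' * hsq A ρ B U) (h3 : 0 ≤ ε') (h4 : ε' ≤ 1 / 4)
    (h5 : 0 < hsq A ρ B U) :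
    ∃ t'' : ℝ, hsq A ρ B (w - t'' • U) ≤ (2 * ε + 16 * ε' * (a + ε)) * X := by
  have k1 := E4.hsq_sub_smul A ρ B (U - t' • v) v (-t')
  rw [neg_smul, sub_neg_eq_add, sub_add_cancel, neg_sq] at k1
  have k2 : hsq A ρ B U ≤ 4 * (t' ^ 2 * hsq A ρ B v) := by nlinarith
  have k3 : t' ≠ 0 := by
    rintro rfl
    linarith
  have k4 := E4.hsq_sub_smul A ρ B w (w - t • v) 1
  rw [one_smul, sub_sub_cancel, hsq_smul] at k4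
  have k5 := E4.hsq_sub_smul A ρ B (w - t • v) (U - t' • v) (t / t')
  rw [smul_sub, smul_smul, div_mul_cancel₀ _ k3, sub_sub_sub_cancel_right] at k5
  have k6 : (t / t') ^ 2 * hsq A ρ B (U - t' • v) ≤ (t / t') ^ 2 * (ε' * (4 * (t' ^ 2 *
      hsq A ρ B v))) := mul_le_mul_of_nonneg_left (h2.trans (mul_le_mul_of_nonneg_left k2 h3))
    (sq_nonneg _)
  have k7 : (t / t') ^ 2 * (ε' * (4 * (t' ^ 2 * hsq A ρ B v))) =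
      4 * ε' * (t ^ 2 * hsq A ρ B v) := by field_simp
  have k8 : ε' * (t ^ 2 * hsq A ρ B v) ≤ ε' * (2 * (a * X) + 2 * (ε * X)) :=
    mul_le_mul_of_nonneg_left (by linarith) h3
  exact ⟨t / t', by linarith⟩

/-- The state at one scale. -/
structure St (A : Gauge M) (ℓ : ℕ) (s : Tor M × Fin 4) (u : Tor M × Fin 4 → ℝ) (ν c : ℝ) :
    Prop where
  one : u s = 1
  pos : 0 < ν
  dom : Dom A ℓ s.1 (Pi.single s 1) ν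
  test : hsq A ℓ (ball s.1 (3 * ℓ)) u * ν ^ 2 ≤ c ^ 2 * ℓ

theorem St.val (h : St A ℓ s u ν c) (g : Tor M × Fin 4 → ℝ) :
    g s ^ 2 * ℓ ≤ ν ^ 2 * hsq A ℓ (ball s.1 (3 * ℓ)) g := by
  have := h.dom g
  rw [single_one_dotProduct] at this
  exact this.trans (mul_le_mul_of_nonneg_left (E4.hsq_mono A (Nat.cast_nonneg ℓ) le_rfl
    (E3.ball_mono _ (by omega)) g) (sq_nonneg ν))

theorem St.low (h : St A ℓ s u ν c) : (ℓ : ℝ) ≤ ν ^ 2 * hsq A ℓ (ball s.1 (3 * ℓ)) u := by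
  simpa [h.one] using h.val u

theorem St.hpos (h : St A ℓ s u ν c) (hℓ : 1 ≤ ℓ) : 0 < hsq A ℓ (ball s.1 (3 * ℓ)) u :=
  pos_of_mul_pos_right ((Nat.cast_pos.2 hℓ).trans_le h.low) (sq_nonneg ν)

theorem St.center (h : St A ℓ s u ν c) (hℓ : 1 ≤ ℓ) (r : Tor M × Fin 4 → ℝ) :
    hsq A ℓ (ball s.1 (3 * ℓ)) (r - r s • u) ≤ (2 + 2 * c ^ 2) * hsq A ℓ (ball s.1 (3 * ℓ)) r := by
  have k1 := E4.hsq_sub_smul A ℓ (ball s.1 (3 * ℓ)) r u (r s)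
  have k2 : r s ^ 2 * hsq A ℓ (ball s.1 (3 * ℓ)) u ≤ c ^ 2 * hsq A ℓ (ball s.1 (3 * ℓ)) r := by
    refine le_of_mul_le_mul_right ?_ (Nat.cast_pos.2 hℓ : (0 : ℝ) < ℓ)
    have k3 := mul_le_mul_of_nonneg_right (h.val r) (h.hpos hℓ).le
    have k4 := mul_le_mul_of_nonneg_right h.test (E4.hsq_nonneg A (ρ := ℓ) (ball s.1 (3 * ℓ)) r)
    linarith
  linarith

/-- The fields at scale `ℓ'` have size `a` at scale `ℓ`. -/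
def Sz (A : Gauge M) (ℓ ℓ' : ℕ) (z : Tor M) (a : ℝ) : Prop :=
  ∀ w, hsq A ℓ (ball z (3 * ℓ)) w * (ℓ' : ℝ) ^ 2 ≤ a ^ 2 * (ℓ : ℝ) ^ 2 * hsq A ℓ' (ball z ℓ') w

/-- The fields at scale `ℓ'` are multiples of `u` up to `η`. -/
def Rk (A : Gauge M) (ℓ ℓ' : ℕ) (s : Tor M × Fin 4) (u : Tor M × Fin 4 → ℝ) (η : ℝ) : Prop :=
  ∀ w, hsq A ℓ (ball s.1 (3 * ℓ)) (w - w s • u) * (ℓ' : ℝ) ^ 2 ≤
    η ^ 2 * (ℓ : ℝ) ^ 2 * hsq A ℓ' (ball s.1 ℓ') w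

theorem Rk.mono {η' : ℝ} (h : Rk A ℓ ℓ' s u η) (h' : η ^ 2 ≤ η' ^ 2) : Rk A ℓ ℓ' s u η' :=
  fun w => (h w).trans (mul_le_mul_of_nonneg_right (mul_le_mul_of_nonneg_right h' (sq_nonneg _))
    (E4.hsq_nonneg _ _ _))

/-- The size at the next scale. -/
noncomputable def nx (A : Gauge M) (ℓ ℓ' : ℕ) (s : Tor M × Fin 4) (u : Tor M × Fin 4 → ℝ)
    (C : ℝ) : ℝ := √(C * ℓ ^ 2 / (ℓ' * hsq A ℓ (ball s.1 (3 * ℓ)) u))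

theorem St.nx_sq (h : St A ℓ s u ν c) (hℓ : 1 ≤ ℓ) (hℓ' : 1 ≤ ℓ') (hC : 0 ≤ C) :
    nx A ℓ ℓ' s u C ^ 2 * (ℓ' * hsq A ℓ (ball s.1 (3 * ℓ)) u) = C * ℓ ^ 2 := by
  have := h.hpos hℓ
  have : (0 : ℝ) < ℓ' := Nat.cast_pos.2 hℓ'
  rw [nx, Real.sq_sqrt (by positivity), div_mul_cancel₀ _ (by positivity)]

theorem St.mkAt {η₀ : ℝ} (h : St A ℓ s u ν c) (hℓ : 1 ≤ ℓ) (hℓ' : 1 ≤ ℓ') (h1 : Sz A ℓ ℓ' s.1 a)
    (h2 : Rk A ℓ ℓ' s u η₀) (h3 : η₀ ^ 2 ≤ η ^ 2) (hC : 2 * a ^ 2 + 2 * η₀ ^ 2 ≤ C) (h4 : 1 ≤ C)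
    (h5 : C ≤ c ^ 2) (hc : 0 ≤ c) : MkAt A ℓ ℓ' s u ν (nx A ℓ ℓ' s u C) c η := by
  have e0 := h.hpos hℓ
  have l0 : (0 : ℝ) < ℓ := Nat.cast_pos.2 hℓ
  have l1 : (0 : ℝ) < ℓ' := Nat.cast_pos.2 hℓ'
  have e1 := h.nx_sq hℓ hℓ' (zero_le_one.trans h4)
  have e2 : 0 < nx A ℓ ℓ' s u C := Real.sqrt_pos.2 (by positivity)
  have e3 := h.pos
  have e4 := h.low
  have e5 := h.test
  refine ⟨h.one, h.pos, e2, h.dom, fun w => ?_, h.test, h2.mono h3, ?_, ?_⟩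
  · rw [single_one_dotProduct]
    have k1 := E4.hsq_sub_smul A ℓ (ball s.1 (3 * ℓ)) w (w - w s • u) 1
    rw [one_smul, sub_sub_cancel, hsq_smul] at k1
    have k2 := E4.hsq_mono A l1.le le_rfl (E3.ball_mono s.1 (by omega : ℓ' ≤ 2 * ℓ')) w
    have k3 := E4.hsq_nonneg A (ρ := ℓ') (ball s.1 ℓ') w
    have k4 : (2 * a ^ 2 + 2 * η₀ ^ 2) * (ℓ ^ 2 * hsq A ℓ' (ball s.1 ℓ') w) ≤
        C * (ℓ ^ 2 * hsq A ℓ' (ball s.1 (2 * ℓ')) w) := by gcongr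
    have k5 := mul_le_mul_of_nonneg_right k1 (sq_nonneg (ℓ' : ℝ))
    refine le_of_mul_le_mul_right ?_ (mul_pos l1 e0)
    have k6 := congrArg (· * hsq A ℓ' (ball s.1 (2 * ℓ')) w) e1
    have k7 := h1 w
    have k8 := h2 w
    linarith
  · refine abs_le_of_sq_le_sq' ?_ (by positivity) |>.2
    rw [mul_pow, mul_pow, Real.sq_sqrt (by positivity), ← mul_div_assoc, le_div_iff₀ l1]
    refine le_of_mul_le_mul_right ?_ e0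
    have k1 : C * ℓ * ℓ ≤ c ^ 2 * ℓ * (ν ^ 2 * hsq A ℓ (ball s.1 (3 * ℓ)) u) := by gcongr
    linarith
  · refine abs_le_of_sq_le_sq' ?_ (by positivity) |>.2
    rw [mul_pow, mul_pow, Real.sq_sqrt (by positivity), ← mul_div_assoc, div_mul_eq_mul_div,
      le_div_iff₀ l0]
    refine le_of_mul_le_mul_right ?_ e0
    have k1 := mul_le_mul_of_nonneg_right e5 l0.le
    have k2 : c ^ 2 * (1 * ℓ ^ 2) ≤ c ^ 2 * (C * ℓ ^ 2) := by gcongr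
    have k3 := congrArg (c ^ 2 * ·) e1
    linarith

/-- The state at the next scale. -/
theorem St.next {η₀ : ℝ} (h : St A ℓ₀ s u ν c) (hℓ₀ : 1 ≤ ℓ₀) (hℓ : 1 ≤ ℓ)
    (h1 : MkAt A ℓ₀ ℓ s u ν (nx A ℓ₀ ℓ s u C) c η₀) (h2 : 0 < hsq A ℓ (ball s.1 (3 * ℓ)) U)
    (h3 : hsq A ℓ (ball s.1 (3 * ℓ)) U * (ℓ₀ : ℝ) ^ 2 ≤
      b * (ℓ : ℝ) ^ 2 * (U s ^ 2 * hsq A ℓ₀ (ball s.1 (3 * ℓ₀)) u)) (hC : 0 ≤ C)
    (h4 : b * C ≤ c ^ 2) : St A ℓ s ((U s)⁻¹ • U) (nx A ℓ₀ ℓ s u C) c := by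
  have l0 : (0 : ℝ) < ℓ₀ := Nat.cast_pos.2 hℓ₀
  have l1 : (0 : ℝ) < ℓ := Nat.cast_pos.2 hℓ
  have e0 := h.hpos hℓ₀
  have e1 : U s ≠ 0 := fun e => by
    rw [e] at h3
    nlinarith [mul_pos h2 (pow_pos l0 2)]
  refine ⟨inv_mul_cancel₀ e1, h1.pos', h1.dom', ?_⟩
  rw [hsq_smul, inv_pow, mul_assoc, inv_mul_le_iff₀ (by positivity)]
  refine le_of_mul_le_mul_right ?_ (mul_pos l1 e0)
  have k1 := congrArg (hsq A ℓ (ball s.1 (3 * ℓ)) U * ·) (h.nx_sq hℓ₀ hℓ hC)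
  have k2 := mul_le_mul_of_nonneg_left h3 hC
  have k3 := mul_le_mul_of_nonneg_right h4
    (by positivity : 0 ≤ (ℓ : ℝ) ^ 2 * (U s ^ 2 * hsq A ℓ₀ (ball s.1 (3 * ℓ₀)) u))
  linarith

/-- The value of a nondegenerate field at the marked half-edge. -/
theorem Rk.val (h : Rk A ℓ₀ ℓ s u η) (hb : 1 ≤ b) (hη : 4 * b * η ^ 2 ≤ 1)
    (h1 : hsq A ℓ (ball s.1 (3 * ℓ)) U * (ℓ₀ : ℝ) ^ 2 ≤
      b * (ℓ : ℝ) ^ 2 * hsq A ℓ₀ (ball s.1 (3 * ℓ₀)) U) :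
    hsq A ℓ (ball s.1 (3 * ℓ)) U * (ℓ₀ : ℝ) ^ 2 ≤
      4 * b * (ℓ : ℝ) ^ 2 * (U s ^ 2 * hsq A ℓ₀ (ball s.1 (3 * ℓ₀)) u) := by
  have k1 := E4.hsq_sub_smul A ℓ₀ (ball s.1 (3 * ℓ₀)) (U - U s • u) u (-U s)
  rw [neg_smul, sub_neg_eq_add, sub_add_cancel, neg_sq] at k1
  have k2 := mul_le_mul_of_nonneg_left k1 (by positivity : 0 ≤ b * (ℓ : ℝ) ^ 2)
  have k3 := mul_le_mul_of_nonneg_left ((h U).trans (mul_le_mul_of_nonneg_left (E4.hsq_mono A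
    (Nat.cast_nonneg ℓ) le_rfl (E3.ball_mono s.1 (by omega : ℓ ≤ 3 * ℓ)) U) (by positivity)))
    (zero_le_one.trans hb)
  have k4 := mul_le_mul_of_nonneg_right hη (mul_nonneg (sq_nonneg (ℓ₀ : ℝ))
    (E4.hsq_nonneg A (ρ := ℓ) (ball s.1 (3 * ℓ)) U))
  linarith

/-- The rank-one property relative to a nondegenerate field. -/
theorem St.rk (h : St A ℓ s ((U s)⁻¹ • U) ν c) (hℓ : 1 ≤ ℓ) (hℓ' : 1 ≤ ℓ')
    (h1 : RkA A ℓ ℓ' (3 * ℓ) a ε s.1) (h2 : 0 < hsq A ℓ (ball s.1 (3 * ℓ)) U)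
    (h3 : hsq A ℓ' (ball s.1 ℓ') U * (ℓ : ℝ) ^ 2 ≤ b * (ℓ' : ℝ) ^ 2 * hsq A ℓ (ball s.1 (3 * ℓ)) U)
    (hb : 0 ≤ b) (h4 : ε ^ 2 * b ≤ 1 / 4)
    (h5 : (2 + 2 * c ^ 2) * (2 * ε ^ 2 + 16 * (ε ^ 2 * b) * (a ^ 2 + ε ^ 2)) ≤ η ^ 2) :
    Rk A ℓ ℓ' s ((U s)⁻¹ • U) η := fun w => by
  obtain ⟨v, hv⟩ := h1
  obtain ⟨k1, t, k2⟩ := hv w
  obtain ⟨-, t', k3⟩ := hv U
  have l1 : (0 : ℝ) < (ℓ' : ℝ) ^ 2 := pow_pos (Nat.cast_pos.2 hℓ') 2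
  have e1 : U s ≠ 0 := right_ne_zero_of_mul (h.one.trans_ne one_ne_zero)
  obtain ⟨t'', k4⟩ := swap (a := a ^ 2) (ε := ε ^ 2) (ε' := ε ^ 2 * b) (w := w) (t := t)
    (X := ℓ ^ 2 * hsq A ℓ' (ball s.1 ℓ') w / ℓ' ^ 2)
    (by rw [← mul_div_assoc, le_div_iff₀ l1]; linarith)
    (by rw [← mul_div_assoc, le_div_iff₀ l1]; linarith)
    (le_of_mul_le_mul_right (k3.trans (by
      linarith [mul_le_mul_of_nonneg_left h3 (sq_nonneg ε)])) l1) (by positivity) h4 h2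
  have k5 := h.center hℓ (w - t'' • U)
  have k6 : w - t'' • U - (w - t'' • U) s • (U s)⁻¹ • U = w - w s • (U s)⁻¹ • U := by
    rw [Pi.sub_apply, Pi.smul_apply, smul_eq_mul, sub_smul, mul_smul, smul_inv_smul₀ e1]
    abel
  rw [k6] at k5
  rw [← le_div_iff₀ l1, mul_assoc, mul_div_assoc]
  refine k5.trans ((mul_le_mul_of_nonneg_left k4 (by positivity)).trans ?_)
  rw [← mul_assoc]
  exact mul_le_mul_of_nonneg_right h5 (div_nonneg (mul_nonneg (sq_nonneg _)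
    (E4.hsq_nonneg _ _ _)) l1.le)

end Vale.Agent.P144Z.IN4
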